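import Vale.Agent.P255L9.Conv
import Vale.Agent.P255.H370.Main
import Vale.Agent.P211W98.LC

/-! P255: the intrinsic statement. -/

set_option maxSynthPendingDepth 3
set_option linter.unusedSectionVars false

namespace Vale.Agent.P255L

open scoped Manifold ContDiff Topology
open Bundle VectorField FiberBundle Set Filter
open Vale.Agent.P255 (trans chris chrisB curv toMetric IsMetricOn cc Compat)

noncomputable section

variable {E : Type} [NormedAddCommGroup E] [NormedSpace ℝ E] [FiniteDimensional ℝ E]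
  {M : Type} [TopologicalSpace M] [ChartedSpace E M] [IsManifold 𝓘(ℝ, E) ∞ M]
  {g : RMetric E M} {cov : Conn E M}

theorem IsLeviCivita.noConj [CompactSpace M] [T2Space M] (hc : IsLeviCivita g cov)
    (hg : P255.NoConj (toMetric g)) : NoConjugatePoints cov := by
  intro I hI γ J hγ hJ t₁ h₁ t₂ h₂ ht e1 e2 t htI
  obtain ⟨σ, V', J', K', hs, i1, i2, i3, hk⟩ :=
    exists_sol (toMetric g) (γ t₁) (vel E I γ t₁) (covD cov I γ J t₁) t₁
  have hu := (hc.sol_jac hγ hJ).unique (hs.mono (subset_univ I)) hI h₁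
    ⟨i1, by rw [e1]; exact i2, i3⟩
  exact (zero_of_tb (hu t htI).2.1).2 (hk hg t₂ ht ((zero_of_tb (hu t₂ h₂).2.1).1 e2) t)

theorem den_pos (g : RMetric E M) {p : M} {v w : TangentSpace 𝓘(ℝ, E) p}
    (h : LinearIndependent ℝ ![v, w]) : 0 < g.inner p v v * g.inner p w w - g.inner p v w ^ 2 := by
  rw [linearIndependent_fin2] at h
  obtain ⟨hw, h2⟩ : w ≠ 0 ∧ ∀ a : ℝ, a • w ≠ v := h
  have h3 := g.pos p w hw
  have h4 := g.pos p (v - (g.inner p v w / g.inner p w w) • w) (sub_ne_zero.2 (h2 _).symm)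
  simp only [map_sub, map_smul, sub_apply, smul_apply, smul_eq_mul] at h4
  rw [g.symm p w v] at h4
  have h5 := mul_pos h4 h3
  field_simp at h5
  nlinarith [h5]

theorem IsLeviCivita.npc (hc : IsLeviCivita g cov) (h : Nonpos g cov) :
    P255.Npc (toMetric g) := by
  intro a u hu v w
  have hG := (toMetric g).isMetricOn a
  by_cases hl : LinearIndependent ℝ ![cf a v ((chartAt E a).symm u), cf a w ((chartAt E a).symm u)]
  · have hp := (chartAt E a).map_target hu
    have h1 := h _ _ _ hl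
    unfold sec at h1
    rw [div_nonpos_iff] at h1
    have h2 := den_pos g hl
    rcases h1 with h1 | h1
    · linarith [h1.2]
    · have h3 := h1.1
      rwa [inner_eq g hp, hc.cp_Rm hp, cp_cf hp, cp_cf hp, (chartAt E a).right_inv hu] at h3
  · have hp := (chartAt E a).map_target hu
    rw [linearIndependent_fin2] at hl
    have hl' : w = 0 ∨ ∃ c : ℝ, c • w = v := by
      by_contra hcon
      rw [not_or, not_exists] at hcon
      refine hl ⟨fun h0 => hcon.1 ?_, fun c h0 => hcon.2 c ?_⟩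
      · have := congrArg (cp a) (show cf a w ((chartAt E a).symm u) = 0 from h0)
        rwa [cp_cf hp, cp_zero hp] at this
      · have := congrArg (cp a) (show c • cf a w ((chartAt E a).symm u) =
          cf a v ((chartAt E a).symm u) from h0)
        rwa [cp_smul hp, cp_cf hp, cp_cf hp] at this
    rcases hl' with rfl | ⟨c, rfl⟩
    · rw [hG.curv_eq hu]; simp
    · rw [map_smul, hG.curv_skew hu, smul_zero]

theorem exists_lc [T2Space M] (g : RMetric E M) :
    ∃ cov : Conn E M, IsLeviCivita g cov ∧ cov.ContMDiffCovariantDerivative ∞ := by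
  let : RiemannianBundle (fun x : M => TangentSpace 𝓘(ℝ, E) x) := ⟨g.toRiemannianMetric⟩
  obtain ⟨cov, h⟩ := P211W.exists_lc (E := E) (M := M)
  refine ⟨cov, ⟨h.torsion, fun Y Z p hY hZ v => ?_⟩, h.smooth⟩
  have h1 : mvfderiv 𝓘(ℝ, E) (fun q => g.inner q (Y q) (Z q)) p (extend E v p) =
      g.inner p (cov Y p (extend E v p)) (Z p) + g.inner p (Y p) (cov Z p (extend E v p)) :=
    h.metric.mvfderiv_inner_eq (extend E v) hY hZ
  rwa [extend_apply_self] at h1

theorem IsLeviCivita.uniq {cov' : Conn E M} (hc : IsLeviCivita g cov) (hc' : IsLeviCivita g cov')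
    {Y : Field E M} {p : M} (hY : DiffAt Y p) : cov' Y p = cov Y p := by
  have h := mem_chart_source E p
  ext v
  exact cp_inj h ((hc'.cp_cov h hY v).trans (hc.cp_cov h hY v).symm)

theorem IsLeviCivita.calculus (hc : IsLeviCivita g cov) : Calculus cov := by
  refine ⟨fun X Y Z p hX hY hZ => hc.tensorial hX hY hZ, fun I hI γ J K hJ hK t ht => ?_⟩
  have h := mem_chart_source E (γ t)
  obtain ⟨hγ, dJ⟩ := (md_iff h).1 (hJ t ht)
  have dK := ((md_iff h).1 (hK t ht)).2
  have ev := ev_srcW h hγ.continuousWithinAt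
  refine ⟨cp_inj h ?_, fun f f' hf => cp_inj h ?_, fun X hX => cp_inj h ?_⟩
  · have h1 := (dJ.hasDerivWithinAt.add dK.hasDerivWithinAt).congr_of_eventuallyEq
      (f₁ := fun s => cp (γ t) (J s + K s)) (by filter_upwards [ev] with s hs using cp_add hs _ _)
      (cp_add h _ _)
    rw [cp_add h, hc.cp_covD_self, hc.cp_covD_self, hc.cp_covD_self, h1.derivWithin (hI t ht),
      cp_add h]
    simp only [← P255.chrisB_apply, map_add]
    abel
  · have h1 := (hf.smul dJ.hasDerivWithinAt).congr_of_eventuallyEq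
      (f₁ := fun s => cp (γ t) (f s • J s)) (by filter_upwards [ev] with s hs using cp_smul hs _ _)
      (cp_smul h _ _)
    rw [cp_add h, cp_smul h, cp_smul h, hc.cp_covD_self, hc.cp_covD_self,
      h1.derivWithin (hI t ht), cp_smul h]
    simp only [← P255.chrisB_apply, map_smul, smul_add]
    abel
  · have h0 : DifferentiableAt ℝ (hat (γ t) X) (cc γ (γ t) t) := (diffAt_iff h X).1 hX
    have h1 := (h0.hasFDerivAt.comp_hasDerivWithinAt t
      (hasDeriv_cc h hγ)).congr_of_eventuallyEq (f₁ := fun s => cp (γ t) (X (γ s)))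
      (by filter_upwards [ev] with s hs using (hat_self hs X).symm) (hat_self h X).symm
    rw [hc.cp_covD_self, hc.cp_cov h hX, h1.derivWithin (hI t ht)]
    rfl

theorem IsLeviCivita.complete [CompactSpace M] [T2Space M] (hc : IsLeviCivita g cov) :
    Complete cov := by
  refine ⟨fun x => ?_, fun I hI hn γ hγ => ?_, fun γ hγ w => ?_⟩
  · obtain ⟨σ, V, J, K, hs, i1, -⟩ := exists_sol (toMetric g) x.proj x.snd 0 0
    obtain ⟨e1, h2, -⟩ := hc.of_sol uniqueDiffOn_univ hs
    exact ⟨σ, h2, by rw [e1 0 (mem_univ _)]; exact i1.symm⟩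
  · obtain ⟨t₁, h₁⟩ := hn.nonempty
    obtain ⟨σ, V, J, K, hs, i1, i2, i3, -⟩ := exists_sol (toMetric g) (γ t₁) (vel E I γ t₁) 0 t₁
    have hu := (hc.sol_geo hγ).unique (hs.mono (subset_univ I)) hI h₁ ⟨i1, i2, i3⟩
    exact ⟨σ, (hc.of_sol uniqueDiffOn_univ hs).2.1, fun t ht => (hu t ht).pt.symm⟩
  · obtain ⟨σ, V, J, K, hs, i1, i2, i3, -⟩ := exists_sol (toMetric g) (γ 0) (vel E univ γ 0) w 0
    have z : (⟨γ 0, 0⟩ : TangentBundle 𝓘(ℝ, E) M) = ⟨σ 0, 0⟩ := by
      rw [show γ 0 = σ 0 from congrArg TotalSpace.proj i1]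
    have hu := (hc.sol_geo hγ).unique (sol_zero hs.cont hs.d1 hs.d2) ordConnected_univ
      (mem_univ 0) ⟨i1, z, z⟩
    obtain rfl : γ = σ := funext fun t => (hu t (mem_univ t)).pt
    obtain ⟨-, -, e2, h3⟩ := hc.of_sol uniqueDiffOn_univ hs
    have h := mem_chart_source E (γ 0)
    exact ⟨J, h3, cp_inj h (cp_of_tb i2).symm,
      (e2 0 (mem_univ _)).trans (cp_inj h (cp_of_tb i3).symm)⟩

theorem wellPosed [CompactSpace M] [T2Space M] : WellPosed E M := by
  intro g
  obtain ⟨cov, h, hs⟩ := exists_lc g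
  exact ⟨cov, h, hs, fun cov' h' => ⟨fun Y p hY => h.uniq h' hY, h'.calculus, h'.complete,
    fun hn => h'.noConj (P255.noConj_of_npc (h'.npc hn))⟩⟩

end

theorem main : (∀ n : ℕ, 3 ≤ n →
    ∃ (E : Type) (_ : NormedAddCommGroup E) (_ : NormedSpace ℝ E) (_ : FiniteDimensional ℝ E)
      (M : Type) (_ : TopologicalSpace M) (_ : ChartedSpace E M) (_ : IsManifold 𝓘(ℝ, E) ∞ M),
      Module.finrank ℝ E = n ∧
      CompactSpace M ∧ T2Space M ∧ SecondCountableTopology M ∧ ConnectedSpace M ∧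
      AdmitsNoConj E M ∧ ¬ AdmitsNonpos E M) ∧
    ∀ (E : Type) [NormedAddCommGroup E] [NormedSpace ℝ E] [FiniteDimensional ℝ E]
      (M : Type) [TopologicalSpace M] [ChartedSpace E M] [IsManifold 𝓘(ℝ, E) ∞ M]
      [CompactSpace M] [T2Space M], WellPosed E M := by
  refine ⟨fun n hn => ?_, fun E _ _ _ M _ _ _ _ _ => wellPosed⟩
  obtain ⟨E, i1, i2, M, i3, i4, i5, i6, h1, h2, h3, h4, h5⟩ := P255.exists_carries (n - 3)
  refine ⟨E, i1, i2, i6, M, i3, i4, i5, by omega, h2, h3, ?_, h4, ?_, ?_⟩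
  · have : SecondCountableTopology E := secondCountable_of_proper
    exact ChartedSpace.secondCountable_of_sigmaCompact E M
  · obtain ⟨⟨k, hk⟩, -⟩ := h5
    obtain ⟨g, hg⟩ := P255.exists_rmetric k
    obtain ⟨cov, h, -⟩ := exists_lc g
    exact ⟨g, cov, h, h.noConj (P255.H370.noConj_of (g' := g) (fun _ _ _ _ _ => rfl)
      (P255.noConjugatePoints_of hg hk))⟩
  · rintro ⟨g, cov, h, hg⟩
    exact h5.not_npc _ (h.npc hg)

end Vale.Agent.P255L
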