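import Vale.Agent.P255L9.Defs
import Vale.Agent.P255.Bdl.B2

/-! P255: components of vectors and fields in a chart; the Levi-Civita connection in a chart. -/

set_option maxSynthPendingDepth 3
set_option linter.unusedSectionVars false

namespace Vale.Agent.P255L

open scoped Manifold ContDiff Topology
open Bundle VectorField FiberBundle Set Filter
open Vale.Agent.P255 (trans chris chrisB curv toMetric IsMetricOn)

noncomputable section

variable {E : Type} [NormedAddCommGroup E] [NormedSpace ℝ E] [FiniteDimensional ℝ E]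
  {M : Type} [TopologicalSpace M] [ChartedSpace E M] [IsManifold 𝓘(ℝ, E) ∞ M]

/-- components in the chart at `a` -/
def cp (a : M) {q : M} (v : TangentSpace 𝓘(ℝ, E) q) : E :=
  (trivializationAt E (TangentSpace 𝓘(ℝ, E)) a ⟨q, v⟩).2

/-- the field with constant components in the chart at `a` -/
def cf (a : M) (y : E) : Field E M := fun q =>
  (trivializationAt E (TangentSpace 𝓘(ℝ, E)) a).symm q y

/-- a field read in the chart at `a` -/
def hat (a : M) (Y : Field E M) (u : E) : E := cp a (Y ((chartAt E a).symm u))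

variable {a b q : M}

theorem cp_eq (h : q ∈ (chartAt E a).source) (v : TangentSpace 𝓘(ℝ, E) q) :
    cp a v = (mfderiv 𝓘(ℝ, E) 𝓘(ℝ, E) (chartAt E a) q v : E) := by
  have h1 := TangentBundle.continuousLinearMapAt_trivializationAt (I := 𝓘(ℝ, E)) (x₀ := a) h
  have h2 := congrArg (fun L : E →L[ℝ] E => L v) h1
  have h3 : (trivializationAt E (TangentSpace 𝓘(ℝ, E)) a).continuousLinearMapAt ℝ q v = cp a v := by
    rw [Trivialization.continuousLinearMapAt_apply, Trivialization.coe_linearMapAt_of_mem _ h]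
    rfl
  exact h3.symm.trans h2

/-- `cp` as a linear map -/
def cpL (a q : M) : TangentSpace 𝓘(ℝ, E) q →L[ℝ] E := mfderiv 𝓘(ℝ, E) 𝓘(ℝ, E) (chartAt E a) q

theorem cp_eqL (h : q ∈ (chartAt E a).source) (v : TangentSpace 𝓘(ℝ, E) q) :
    cp a v = cpL a q v := cp_eq h v

theorem cp_add (h : q ∈ (chartAt E a).source) (v w : TangentSpace 𝓘(ℝ, E) q) :
    cp a (v + w) = cp a v + cp a w := by rw [cp_eqL h, cp_eqL h, cp_eqL h, map_add]

theorem cp_sub (h : q ∈ (chartAt E a).source) (v w : TangentSpace 𝓘(ℝ, E) q) :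
    cp a (v - w) = cp a v - cp a w := by rw [cp_eqL h, cp_eqL h, cp_eqL h, map_sub]

theorem cp_smul (h : q ∈ (chartAt E a).source) (c : ℝ) (v : TangentSpace 𝓘(ℝ, E) q) :
    cp a (c • v) = c • cp a v := by rw [cp_eqL h, cp_eqL h, map_smul]

theorem cp_zero (h : q ∈ (chartAt E a).source) : cp a (0 : TangentSpace 𝓘(ℝ, E) q) = 0 := by
  rw [cp_eqL h, map_zero]

theorem cp_inj (h : q ∈ (chartAt E a).source) {v w : TangentSpace 𝓘(ℝ, E) q}
    (e : cp a v = cp a w) : v = w := by
  refine sub_eq_zero.1 (P255.mfderiv_chart_injective a q h _ ?_)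
  rw [← cp_eq h, cp_sub h, e, sub_self]
  rfl

theorem cp_cf (h : q ∈ (chartAt E a).source) (y : E) : cp a (cf a y q) = y := by
  unfold cp cf
  rw [Trivialization.apply_mk_symm _ h]

theorem cf_cp (h : q ∈ (chartAt E a).source) (v : TangentSpace 𝓘(ℝ, E) q) :
    cf a (cp a v) q = v := cp_inj h (cp_cf h _)

theorem extend_eq (v : TangentSpace 𝓘(ℝ, E) q) : extend E v = cf q (cp q v) := rfl

theorem cp_trans (ha : q ∈ (chartAt E a).source) (hb : q ∈ (chartAt E b).source)
    (v : TangentSpace 𝓘(ℝ, E) q) :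
    cp b v = fderiv ℝ (trans E a b) (chartAt E a q) (cp a v) := by
  rw [cp_eq ha, cp_eq hb]
  exact P255.mfderiv_chart_trans a b q ha hb v

theorem cf_eq (h : q ∈ (chartAt E a).source) (y : E) :
    (cf a y q : E) = fderiv ℝ (trans E a q) (chartAt E a q) y := by
  have h1 := congrArg (fun L : E →L[ℝ] E => L y) (P255.symmL_eq_fderiv a h)
  have h2 := (trivializationAt E (TangentSpace 𝓘(ℝ, E)) a).symmL_apply (R := ℝ) (b := q) h y
  exact h2.symm.trans h1

theorem inner_eq (g : RMetric E M) (h : q ∈ (chartAt E a).source)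
    (v w : TangentSpace 𝓘(ℝ, E) q) :
    g.inner q v w = (toMetric g).coef a (chartAt E a q) (cp a v) (cp a w) := by
  have h1 := P255.coefL_apply g a ((chartAt E a).map_source h) q ((chartAt E a).left_inv h).symm
    (cp a v) (cp a w)
  rw [← cf_eq h, ← cf_eq h, cf_cp h, cf_cp h] at h1
  exact h1.symm

theorem hat_self (h : q ∈ (chartAt E a).source) (Y : Field E M) :
    hat a Y (chartAt E a q) = cp a (Y q) := by
  have : ∀ p, p = q → cp a (Y p) = cp a (Y q) := by rintro p rfl; rfl
  exact this _ ((chartAt E a).left_inv h)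

section Param

variable {F : Type} [NormedAddCommGroup F] [NormedSpace ℝ F]

/-- differentiability of a map to the tangent bundle, in a chart -/
theorem md_iff {c : F → M} {W : (s : F) → TangentSpace 𝓘(ℝ, E) (c s)} {S : Set F} {s₀ : F}
    (h : c s₀ ∈ (chartAt E a).source) :
    MDifferentiableWithinAt 𝓘(ℝ, F) 𝓘(ℝ, E).tangent
      (fun s => (⟨c s, W s⟩ : TangentBundle 𝓘(ℝ, E) M)) S s₀ ↔
    MDifferentiableWithinAt 𝓘(ℝ, F) 𝓘(ℝ, E) c S s₀ ∧
      DifferentiableWithinAt ℝ (fun s => cp a (W s)) S s₀ := by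
  rw [← mdifferentiableWithinAt_iff_differentiableWithinAt]
  exact (trivializationAt E (TangentSpace 𝓘(ℝ, E)) a).mdifferentiableWithinAt_totalSpace_iff
    𝓘(ℝ, E) (fun s => (⟨c s, W s⟩ : TangentBundle 𝓘(ℝ, E) M))
    (((trivializationAt E (TangentSpace 𝓘(ℝ, E)) a).mem_source).2 h)

theorem mdc_iff {c : F → M} {S : Set F} {s₀ : F} (h : c s₀ ∈ (chartAt E a).source) :
    MDifferentiableWithinAt 𝓘(ℝ, F) 𝓘(ℝ, E) c S s₀ ↔
      ContinuousWithinAt c S s₀ ∧ DifferentiableWithinAt ℝ (fun s => chartAt E a (c s)) S s₀ := by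
  rw [← mdifferentiableWithinAt_iff_differentiableWithinAt]
  exact mdifferentiableWithinAt_iff_target_of_mem_source h

end Param

theorem ev_src (h : q ∈ (chartAt E a).source) : ∀ᶠ p in 𝓝 q, p ∈ (chartAt E a).source :=
  (chartAt E a).open_source.mem_nhds h

theorem ev_tgt (h : q ∈ (chartAt E a).source) :
    ∀ᶠ u in 𝓝 (chartAt E a q), u ∈ (chartAt E a).target :=
  (chartAt E a).open_target.mem_nhds ((chartAt E a).map_source h)

theorem diffAt_iff (h : q ∈ (chartAt E a).source) (Y : Field E M) :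
    DiffAt Y q ↔ DifferentiableAt ℝ (hat a Y) (chartAt E a q) := by
  have hu := (chartAt E a).map_source h
  have e := (chartAt E a).left_inv h
  have h1 := md_iff (a := a) (c := (chartAt E a).symm) (W := fun u => Y ((chartAt E a).symm u))
    (S := univ) (s₀ := chartAt E a q) (by rw [e]; exact h)
  rw [mdifferentiableWithinAt_univ, mdifferentiableWithinAt_univ, differentiableWithinAt_univ] at h1
  have h2 := P255.mdifferentiableAt_chart_symm (E := E) a _ hu
  constructor
  · intro hY
    refine (h1.1 ?_).2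
    have hY' : DiffAt Y ((chartAt E a).symm (chartAt E a q)) := by rw [e]; exact hY
    exact MDifferentiableAt.comp (chartAt E a q) hY' h2
  · intro hY
    have h3 := (h1.2 ⟨h2, hY⟩).comp q (P255.mdifferentiableAt_chart (E := E) a q h)
    refine h3.congr_of_eventuallyEq ?_
    filter_upwards [ev_src h] with p hp
    have : ∀ r, r = p → (⟨p, Y p⟩ : TangentBundle 𝓘(ℝ, E) M) = ⟨r, Y r⟩ := by rintro r rfl; rfl
    exact this _ ((chartAt E a).left_inv hp)

theorem hat_cf (h : q ∈ (chartAt E a).source) (y : E) :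
    hat a (cf a y) =ᶠ[𝓝 (chartAt E a q)] fun _ => y := by
  filter_upwards [ev_tgt h] with u hu
  exact cp_cf ((chartAt E a).map_target hu) y

theorem diffAt_cf (h : q ∈ (chartAt E a).source) (y : E) : DiffAt (cf a y) q :=
  (diffAt_iff h _).2 ((hat_cf h y).differentiableAt_iff.2 (differentiableAt_const y))

theorem fderiv_hat_cf (h : q ∈ (chartAt E a).source) (y : E) :
    fderiv ℝ (hat a (cf a y)) (chartAt E a q) = 0 := by
  rw [(hat_cf h y).fderiv_eq]; simp

theorem chart_inv (h : q ∈ (chartAt E a).source) :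
    (mfderiv 𝓘(ℝ, E) 𝓘(ℝ, E) (chartAt E a) q).IsInvertible :=
  isInvertible_mfderiv_extChartAt (I := 𝓘(ℝ, E)) (x := a) (y := q) (by simpa using h)

theorem cp_pull (h : q ∈ (chartAt E a).source) (V : (x : E) → TangentSpace 𝓘(ℝ, E) x) :
    cp a (mpullback 𝓘(ℝ, E) 𝓘(ℝ, E) (chartAt E a) V q) = V (chartAt E a q) := by
  rw [cp_eq h, mpullback_apply, (chart_inv h).self_apply_inverse]

theorem pull_hat (h : q ∈ (chartAt E a).source) (Y : Field E M) :
    Y =ᶠ[𝓝 q] mpullback 𝓘(ℝ, E) 𝓘(ℝ, E) (chartAt E a) (hat a Y) := by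
  filter_upwards [ev_src h] with p hp
  refine cp_inj hp ?_
  exact ((cp_pull hp (hat a Y)).trans (hat_self hp Y)).symm

theorem md_model {V : E → E} {u : E} (h : DifferentiableAt ℝ V u) :
    MDifferentiableAt 𝓘(ℝ, E) 𝓘(ℝ, E).tangent
      (fun x => (⟨x, V x⟩ : TangentBundle 𝓘(ℝ, E) E)) u := by
  rw [mdifferentiableAt_totalSpace]
  refine ⟨mdifferentiableAt_id, ?_⟩
  rw [mdifferentiableAt_iff_differentiableAt]
  refine h.congr_of_eventuallyEq (Eventually.of_forall fun x => ?_)
  exact congrArg Prod.snd (trivializationAt_model_space_apply (I := 𝓘(ℝ, E)) _ _)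

/-- the bracket in a chart -/
theorem cp_bracket (h : q ∈ (chartAt E a).source) {X Y : Field E M} (hX : DiffAt X q)
    (hY : DiffAt Y q) :
    cp a (mlieBracket 𝓘(ℝ, E) X Y q) =
      fderiv ℝ (hat a Y) (chartAt E a q) (cp a (X q)) -
        fderiv ℝ (hat a X) (chartAt E a q) (cp a (Y q)) := by
  have : CompleteSpace E := FiniteDimensional.complete ℝ E
  have : IsManifold 𝓘(ℝ, E) (minSmoothness ℝ 2) M := by
    rw [minSmoothness_of_isRCLikeNormedField]
    exact IsManifold.of_le (n := ∞) (by norm_cast)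
  have hc : ContMDiffAt 𝓘(ℝ, E) 𝓘(ℝ, E) ∞ (chartAt E a) q :=
    (contMDiffOn_chart (I := 𝓘(ℝ, E)) (n := ∞) (x := a)).contMDiffAt (ev_src h)
  have h1 := mpullback_mlieBracket (I := 𝓘(ℝ, E)) (I' := 𝓘(ℝ, E)) (f := chartAt E a)
    (V := hat a X) (W := hat a Y) (x₀ := q) (md_model ((diffAt_iff h X).1 hX))
    (md_model ((diffAt_iff h Y).1 hY)) hc
    (by rw [minSmoothness_of_isRCLikeNormedField]; norm_cast)
  have h2 : ∀ V W : (x : E) → TangentSpace 𝓘(ℝ, E) x,
      mlieBracket 𝓘(ℝ, E) V W = lieBracket ℝ V W := by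
    intro V W
    rw [← mlieBracketWithin_univ, mlieBracketWithin_eq_lieBracketWithin]
    exact lieBracketWithin_univ
  rw [(pull_hat h X).mlieBracket_vectorField_eq (pull_hat h Y), ← h1, cp_pull h,
    ← hat_self h X, ← hat_self h Y]
  exact congrFun (h2 (hat a X) (hat a Y)) _

variable {g : RMetric E M} {cov : Conn E M}

theorem IsLeviCivita.tors (hc : IsLeviCivita g cov) {X Y : Field E M} (hX : DiffAt X q)
    (hY : DiffAt Y q) : cov Y q (X q) - cov X q (Y q) = mlieBracket 𝓘(ℝ, E) X Y q :=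
  (CovariantDerivative.torsion_eq_zero_iff cov).1 hc.torsion hX hY

theorem mv_chart (h : q ∈ (chartAt E a).source) {f : M → ℝ} {F : E → ℝ}
    (hF : DifferentiableAt ℝ F (chartAt E a q)) (e : f =ᶠ[𝓝 q] fun p => F (chartAt E a p))
    (v : TangentSpace 𝓘(ℝ, E) q) :
    mvfderiv 𝓘(ℝ, E) f q v = fderiv ℝ F (chartAt E a q) (cp a v) := by
  have h1 := (hF.hasFDerivAt.hasMFDerivAt.comp q
    (P255.mdifferentiableAt_chart (E := E) a q h).hasMFDerivAt).congr_of_eventuallyEq e
  rw [cp_eq h]
  exact congrArg (fun L : E →L[ℝ] ℝ => L v) h1.mfderiv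

/-- Christoffel symbols of the Levi-Civita connection -/
theorem IsLeviCivita.cp_cov_cf (hc : IsLeviCivita g cov) (h : q ∈ (chartAt E a).source)
    (x y : E) : cp a (cov (cf a y) q (cf a x q)) =
      chris ((toMetric g).coef a) (chartAt E a q) x y := by
  have hG := (toMetric g).isMetricOn a
  have hu := (chartAt E a).map_source h
  set G := (toMetric g).coef a
  set u := chartAt E a q
  let B : E → E → E := fun x y => cp a (cov (cf a y) q (cf a x q))
  have hs : ∀ x y, B x y = B y x := by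
    intro x y
    have h1 := congrArg (cp a) (hc.tors (diffAt_cf h x) (diffAt_cf h y))
    rw [cp_sub h, cp_bracket h (diffAt_cf h x) (diffAt_cf h y), fderiv_hat_cf h, fderiv_hat_cf h]
      at h1
    exact sub_eq_zero.1 (by simpa using h1)
  have hm : ∀ x y z, fderiv ℝ G u x y z = G u (B x y) z + G u y (B x z) := by
    intro x y z
    have h1 := hc.metric (cf a y) (cf a z) q (diffAt_cf h y) (diffAt_cf h z) (cf a x q)
    rw [mv_chart h (F := fun p => G p y z)
      (((hG.differentiableAt hu).clm_apply (differentiableAt_const y)).clm_apply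
        (differentiableAt_const z)), cp_cf h, hG.fderiv_apply_apply hu, inner_eq g h,
      inner_eq g h, cp_cf h, cp_cf h] at h1
    · exact h1
    · filter_upwards [ev_src h] with p hp
      rw [inner_eq g hp, cp_cf hp, cp_cf hp]
  apply hG.ext_of hu
  intro z
  change G u (B x y) z = _
  rw [hG.chris_spec hu, hm, hm, hm, hs y x, hs z x, hs z y, hG.symm u hu y (B x z),
    hG.symm u hu x (B y z)]
  ring

/-- the Levi-Civita connection in a chart -/
theorem IsLeviCivita.cp_cov (hc : IsLeviCivita g cov) (h : q ∈ (chartAt E a).source)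
    {Y : Field E M} (hY : DiffAt Y q) (v : TangentSpace 𝓘(ℝ, E) q) :
    cp a (cov Y q v) = fderiv ℝ (hat a Y) (chartAt E a q) (cp a v) +
      chris ((toMetric g).coef a) (chartAt E a q) (cp a v) (cp a (Y q)) := by
  have h1 := congrArg (cp a) (hc.tors (diffAt_cf h (cp a v)) hY)
  rw [cp_sub h, cp_bracket h (diffAt_cf h _) hY, fderiv_hat_cf h, cf_cp h] at h1
  have h2 := hc.cp_cov_cf h (cp a (Y q)) (cp a v)
  rw [cf_cp h] at h2
  rw [h2, ((toMetric g).isMetricOn a).chris_symm ((chartAt E a).map_source h)] at h1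
  rw [eq_add_of_sub_eq h1]
  simp

end

end Vale.Agent.P255L
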