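import Vale.Agent.P255L9.Sol

/-! P255: geodesics and Jacobi fields of the connection are the solutions of the system. -/

set_option maxSynthPendingDepth 3
set_option linter.unusedSectionVars false

namespace Vale.Agent.P255L

open scoped Manifold ContDiff Topology
open Bundle VectorField FiberBundle Set Filter
open Vale.Agent.P255 (trans chris chrisB curv toMetric IsMetricOn cc Compat)

noncomputable section

variable {E : Type} [NormedAddCommGroup E] [NormedSpace ℝ E] [FiniteDimensional ℝ E]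
  {M : Type} [TopologicalSpace M] [ChartedSpace E M] [IsManifold 𝓘(ℝ, E) ∞ M]
  {g : RMetric E M} {cov : Conn E M} {I : Set ℝ} {γ : ℝ → M} {V J K : Along E γ}

theorem DiffAlong.base (h : DiffAlong I γ J) {t : ℝ} (ht : t ∈ I) :
    MDifferentiableWithinAt 𝓘(ℝ, ℝ) 𝓘(ℝ, E) γ I t :=
  ((md_iff (mem_chart_source E (γ t))).1 (h t ht)).1

theorem IsLeviCivita.sol_geo (hc : IsLeviCivita g cov) (h : IsGeodesic cov I γ) :
    Sol (toMetric g) I γ (vel E I γ) (fun _ => 0) (fun _ => 0) := by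
  refine sol_zero (fun t ht => (h.1.base ht).continuousWithinAt)
    (fun a t ht ha => hasDeriv_cc ha (h.1.base ht)) (fun a t ht ha => ?_)
  have := hc.hasDeriv_cp ha (h.1 t ht)
  rwa [h.2 t ht, cp_zero ha, zero_sub] at this

theorem IsLeviCivita.sol_jac (hc : IsLeviCivita g cov) (h : IsGeodesic cov I γ)
    (hJ : IsJacobi cov I γ J) : Sol (toMetric g) I γ (vel E I γ) J (covD cov I γ J) := by
  have h0 := hc.sol_geo h
  refine ⟨h0.cont, h0.d1, h0.d2, fun a t ht ha => hc.hasDeriv_cp ha (hJ.1 t ht),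
    fun a t ht ha => ?_⟩
  have h1 := hc.hasDeriv_cp ha (hJ.2.1 t ht)
  have h2 := congrArg (cp a) (hJ.2.2 t ht)
  rw [cp_add ha, cp_zero ha, hc.cp_Rm ha] at h2
  rw [eq_neg_of_add_eq_zero_left h2] at h1
  exact h1

theorem diffAlong_of (hc : ContinuousOn γ I)
    (d1 : ∀ t ∈ I, DifferentiableWithinAt ℝ (cc (E := E) γ (γ t)) I t) {W : Along E γ}
    (e : ∀ t ∈ I, J t = W t)
    (d : ∀ t ∈ I, DifferentiableWithinAt ℝ (fun s => cp (γ t) (W s)) I t) : DiffAlong I γ J := by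
  intro t ht
  have ha := mem_chart_source E (γ t)
  refine (md_iff ha).2 ⟨(mdc_iff ha).2 ⟨hc t ht, d1 t ht⟩, (d t ht).congr ?_ ?_⟩
  · intro s hs; rw [e s hs]
  · rw [e t ht]

theorem IsLeviCivita.of_sol (hc : IsLeviCivita g cov) (hI : UniqueDiffOn ℝ I)
    (h : Sol (toMetric g) I γ V J K) :
    (∀ t ∈ I, vel E I γ t = V t) ∧ IsGeodesic cov I γ ∧ (∀ t ∈ I, covD cov I γ J t = K t) ∧
      IsJacobi cov I γ J := by
  have hs := fun t => mem_chart_source E (γ t)
  have d1 := fun t ht => (h.d1 (γ t) t ht (hs t)).differentiableWithinAt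
  have hb : ∀ t ∈ I, MDifferentiableWithinAt 𝓘(ℝ, ℝ) 𝓘(ℝ, E) γ I t :=
    fun t ht => (mdc_iff (hs t)).2 ⟨h.cont t ht, d1 t ht⟩
  have e1 : ∀ t ∈ I, vel E I γ t = V t := fun t ht =>
    cp_inj (hs t) ((hI t ht).eq_deriv _ (hasDeriv_cc (hs t) (hb t ht)) (h.d1 _ t ht (hs t)))
  have key : ∀ (A B : Along E γ), (∀ t ∈ I, A t = B t) → DiffAlong I γ A → ∀ t ∈ I, ∀ y : E,
      HasDerivWithinAt (fun s => cp (γ t) (B s))
        (y - chris ((toMetric g).coef (γ t)) (cc γ (γ t) t) (cp (γ t) (V t)) (cp (γ t) (B t))) I t →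
      cp (γ t) (covD cov I γ A t) = y := by
    intro A B e hA t ht y hy
    have h1 := hc.hasDeriv_cp (hs t) (hA t ht)
    rw [e1 t ht, e t ht] at h1
    have h2 := hy.congr (f₁ := fun s => cp (γ t) (A s)) (fun s hs => by rw [e s hs])
      (by rw [e t ht])
    exact sub_left_injective ((hI t ht).eq_deriv _ h1 h2)
  have hV : DiffAlong I γ (vel E I γ) := diffAlong_of h.cont d1 e1
    fun t ht => (h.d2 _ t ht (hs t)).differentiableWithinAt
  have hJ : DiffAlong I γ J := diffAlong_of h.cont d1 (fun _ _ => rfl)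
    fun t ht => (h.d3 _ t ht (hs t)).differentiableWithinAt
  have e2 : ∀ t ∈ I, covD cov I γ J t = K t := fun t ht =>
    cp_inj (hs t) (key J J (fun _ _ => rfl) hJ t ht _ (h.d3 _ t ht (hs t)))
  have hK : DiffAlong I γ (covD cov I γ J) := diffAlong_of h.cont d1 e2
    fun t ht => (h.d4 _ t ht (hs t)).differentiableWithinAt
  refine ⟨e1, ⟨hV, fun t ht => cp_inj (hs t) ?_⟩, e2, hJ, hK, fun t ht => cp_inj (hs t) ?_⟩
  · rw [cp_zero (hs t)]
    refine key _ V e1 hV t ht 0 ?_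
    rw [zero_sub]
    exact h.d2 _ t ht (hs t)
  · rw [cp_zero (hs t), cp_add (hs t), key _ K e2 hK t ht _ (h.d4 _ t ht (hs t)),
      hc.cp_Rm (hs t), e1 t ht]
    exact neg_add_cancel _

/-- the field along `γ` with the components `X` -/
def vec (γ : ℝ → M) (X : M → ℝ → E) : Along E γ := fun s => cf (γ s) (X (γ s) s) (γ s)

theorem cp_vec {X : M → ℝ → E} (hX : Compat γ X) {a : M} {t : ℝ}
    (ha : γ t ∈ (chartAt E a).source) : cp a (vec γ X t) = X a t := by
  have hb := mem_chart_source E (γ t)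
  rw [cp_trans hb ha, hX (γ t) a t hb ha]
  unfold vec
  rw [cp_cf hb]
  rfl

theorem compat_covD {k : P255.Metric E M} (hγ : P255.IsGeodesic k γ) {L : M → ℝ → E}
    (hL : P255.IsJacobi k γ L) :
    Compat γ (fun a => P255.covD (k.coef a) (cc γ a) (L a)) := by
  intro a b t ha hb
  have hu := P255.cc_mem (E := E) ha
  have h' : (chartAt E a).symm (cc γ a t) ∈ (chartAt E b).source := by
    rw [P255.symm_cc ha]; exact hb
  have h1 := covD_coord (I := univ) (k.isMetricOn a) (k.isMetricOn b) (τ := trans E a b) hu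
    ((chartAt E b).map_source h') (P255.contDiffAt_trans a b hu h')
    (by filter_upwards [P255.eventually_trans a b hu h'] with x hx v w
        exact k.compat a b x hx.1 hx.2 v w)
    (hγ.eqn a t (mem_univ t) ha).1.hasDerivAt.hasDerivWithinAt
    (hL.eqn a t ha).1.hasDerivAt.hasDerivWithinAt
  rw [hasDerivWithinAt_univ, P255.trans_cc ha] at h1
  have h2 : L b =ᶠ[𝓝 t] fun s => fderiv ℝ (trans E a b) (cc γ a s) (L a s) := by
    filter_upwards [P255.eventually_mem_source hγ.continuous.continuousAt ha,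
      P255.eventually_mem_source hγ.continuous.continuousAt hb] with s h3 h4
    exact hL.compat a b s h3 h4
  have h3 := hγ.vel_compat a b t ha hb
  unfold P255.vel at h3
  change deriv (L b) t + chris _ _ (deriv (cc γ b) t) (L b t) = _
  rw [(h1.congr_of_eventuallyEq h2).deriv, h3, hL.compat a b t ha hb]
  exact sub_add_cancel _ _

theorem sol_of_kit {k : P255.Metric E M} (hγ : P255.IsGeodesic k γ) {L : M → ℝ → E}
    (hL : P255.IsJacobi k γ L) : Sol k univ γ (vec γ (P255.vel γ)) (vec γ L)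
      (vec γ fun a => P255.covD (k.coef a) (cc γ a) (L a)) := by
  have c1 := hγ.vel_compat
  have c2 : Compat γ L := hL.compat
  have c3 := compat_covD hγ hL
  have key : ∀ {X : M → ℝ → E}, Compat γ X → ∀ {a : M} {t : ℝ} {y : E},
      γ t ∈ (chartAt E a).source → HasDerivAt (X a) y t →
      HasDerivWithinAt (fun s => cp a (vec γ X s)) y univ t := by
    intro X hX a t y ha hy
    refine (hy.congr_of_eventuallyEq ?_).hasDerivWithinAt
    filter_upwards [P255.eventually_mem_source hγ.continuous.continuousAt ha] with s hs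
    exact cp_vec hX hs
  refine ⟨hγ.cont, fun a t ht ha => ?_, fun a t ht ha => key c1 ha ?_,
    fun a t ht ha => key c2 ha ?_, fun a t ht ha => key c3 ha ?_⟩
  · rw [cp_vec c1 ha]
    exact (hγ.eqn a t ht ha).1.hasDerivAt.hasDerivWithinAt
  · rw [cp_vec c1 ha]
    obtain ⟨-, e2, e3⟩ := hγ.eqn a t ht ha
    exact e2.hasDerivAt.congr_deriv e3
  · rw [cp_vec c1 ha, cp_vec c2 ha, cp_vec c3 ha]
    exact (hL.eqn a t ha).1.hasDerivAt.congr_deriv (add_sub_cancel_right _ _).symm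
  · rw [cp_vec c1 ha, cp_vec c2 ha, cp_vec c3 ha]
    obtain ⟨-, e2, e3⟩ := hL.eqn a t ha
    refine e2.hasDerivAt.congr_deriv ?_
    unfold P255.vel
    rw [← eq_neg_of_add_eq_zero_left e3]
    exact (add_sub_cancel_right _ _).symm

/-- the global solution with `J t₁ = 0` -/
theorem exists_sol [CompactSpace M] [T2Space M] (k : P255.Metric E M) (p : M)
    (v w : TangentSpace 𝓘(ℝ, E) p) (t₁ : ℝ) :
    ∃ (σ : ℝ → M) (V J K : Along E σ), Sol k univ σ V J K ∧
      (⟨p, v⟩ : TangentBundle 𝓘(ℝ, E) M) = ⟨σ t₁, V t₁⟩ ∧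
      (⟨p, 0⟩ : TangentBundle 𝓘(ℝ, E) M) = ⟨σ t₁, J t₁⟩ ∧
      (⟨p, w⟩ : TangentBundle 𝓘(ℝ, E) M) = ⟨σ t₁, K t₁⟩ ∧
      (P255.NoConj k → ∀ t₂, t₁ ≠ t₂ → J t₂ = 0 → ∀ t, J t = 0) := by
  obtain ⟨e, he⟩ := P255.exists_isExp k
  have hγ := he.geod p (cp p v)
  have hL := he.jac p (cp p v) (cp p w)
  have i1 := he.init p (cp p v)
  have i2 := he.jac_init p (cp p v) (cp p w)
  set γ : ℝ → M := fun t => e p (t • cp p v)
  set L : M → ℝ → E := fun a t =>
    fderiv ℝ (fun x => chartAt E a (e p x)) (t • cp p v) (t • cp p w)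
  have hp := mem_chart_source E p
  have h0 : ∀ s : ℝ, s = 0 → p = γ s := by
    rintro s rfl
    change p = e p ((0 : ℝ) • cp p v)
    rw [zero_smul, he.zero]
  have hL0 : ∀ a, L a 0 = 0 := fun a => by
    change fderiv ℝ _ _ ((0 : ℝ) • cp p w) = 0
    rw [zero_smul ℝ (cp p w), map_zero]
  have c2 : Compat γ L := hL.compat
  have e0 := h0 _ (sub_self t₁)
  have hp' : γ (t₁ - t₁) ∈ (chartAt E p).source := e0 ▸ hp
  refine ⟨_, _, _, _, (sol_of_kit hγ hL).shift t₁, tb_eq e0 hp ?_, tb_eq e0 hp ?_,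
    tb_eq e0 hp ?_, fun hk t₂ ht h2 t => ?_⟩
  · rw [cp_vec hγ.vel_compat hp', sub_self]
    exact i1.deriv.symm
  · rw [cp_vec c2 hp', sub_self, hL0, cp_zero hp]
  · rw [cp_vec (compat_covD hγ hL) hp', sub_self]
    change _ = deriv (L p) 0 + chris _ _ _ (L p 0)
    rw [hL0, ← P255.chrisB_apply, map_zero, add_zero]
    exact i2.deriv.symm
  · have hs := fun s => mem_chart_source E (γ s)
    have h3 : L (γ (t₂ - t₁)) (t₂ - t₁) = 0 := by
      rw [← cp_vec c2 (hs _), ← cp_zero (hs (t₂ - t₁))]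
      exact congrArg _ h2
    refine cp_inj (hs (t - t₁)) ?_
    rw [cp_vec c2 (hs _), cp_zero (hs _)]
    exact hk γ L hγ hL 0 (t₂ - t₁) (fun h => ht (sub_eq_zero.1 h.symm).symm) (hL0 _) h3 _ _ (hs _)

end

end Vale.Agent.P255L
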