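import Vale.Agent.P255L9.Chart

/-! P255: the curvature tensor and the covariant derivative along curves, in any chart. -/

set_option maxSynthPendingDepth 3
set_option linter.unusedSectionVars false

namespace Vale.Agent.P255L

open scoped Manifold ContDiff Topology
open Bundle VectorField FiberBundle Set Filter
open Vale.Agent.P255 (trans chris chrisB curv toMetric IsMetricOn cc)

noncomputable section

variable {E : Type} [NormedAddCommGroup E] [NormedSpace ℝ E] [FiniteDimensional ℝ E]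

section Coord

variable {G : E → E →L[ℝ] E →L[ℝ] ℝ} {U : Set E} {u : E}

/-- `∇_Y Z` in coordinates -/
def nab (G : E → E →L[ℝ] E →L[ℝ] ℝ) (Y Z : E → E) (p : E) : E :=
  fderiv ℝ Z p (Y p) + chrisB G p (Y p) (Z p)

theorem nab_deriv (hG : IsMetricOn G U) (hu : u ∈ U) {Y Z : E → E} (hY : DifferentiableAt ℝ Y u)
    (hZ : ContDiffAt ℝ 2 Z u) : DifferentiableAt ℝ (nab G Y Z) u ∧ ∀ x,
      fderiv ℝ (nab G Y Z) u x = fderiv ℝ (fderiv ℝ Z) u x (Y u) + fderiv ℝ Z u (fderiv ℝ Y u x)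
        + (fderiv ℝ (chrisB G) u x (Y u) (Z u) + chrisB G u (fderiv ℝ Y u x) (Z u)
          + chrisB G u (Y u) (fderiv ℝ Z u x)) := by
  have h1 : DifferentiableAt ℝ (fderiv ℝ Z) u :=
    (hZ.fderiv_right (m := 1) (by norm_num)).differentiableAt (by simp)
  have h2 : DifferentiableAt ℝ Z u := hZ.differentiableAt (by simp)
  have h3 := (h1.hasFDerivAt.clm_apply hY.hasFDerivAt).add
    (((hG.differentiableAt_chrisB hu).hasFDerivAt.clm_apply hY.hasFDerivAt).clm_apply
      h2.hasFDerivAt)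
  have h4 : HasFDerivAt (nab G Y Z) _ u := h3
  refine ⟨h4.differentiableAt, fun x => ?_⟩
  rw [h4.fderiv]
  simp only [add_apply, ContinuousLinearMap.comp_apply, ContinuousLinearMap.flip_apply,
    ContinuousLinearMap.flip_add]
  abel

theorem curv_coord (hG : IsMetricOn G U) (hu : u ∈ U) {X Y Z : E → E}
    (hX : DifferentiableAt ℝ X u) (hY : DifferentiableAt ℝ Y u) (hZ : ContDiffAt ℝ 2 Z u) :
    fderiv ℝ (nab G Y Z) u (X u) + chris G u (X u) (nab G Y Z u)
      - (fderiv ℝ (nab G X Z) u (Y u) + chris G u (Y u) (nab G X Z u))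
      - (fderiv ℝ Z u (fderiv ℝ Y u (X u) - fderiv ℝ X u (Y u))
        + chris G u (fderiv ℝ Y u (X u) - fderiv ℝ X u (Y u)) (Z u))
      = curv G u (X u) (Y u) (Z u) := by
  have hs : fderiv ℝ (fderiv ℝ Z) u (X u) (Y u) = fderiv ℝ (fderiv ℝ Z) u (Y u) (X u) :=
    (hZ.isSymmSndFDerivAt (by simp)) _ _
  rw [(nab_deriv hG hu hY hZ).2, (nab_deriv hG hu hX hZ).2, hG.curv_eq hu, hs]
  simp only [nab, ← P255.chrisB_apply, map_add, map_sub, sub_apply]
  abel

/-- change of coordinates for the covariant derivative along a curve -/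
theorem covD_coord (hG : IsMetricOn G U) {G₂ : E → E →L[ℝ] E →L[ℝ] ℝ} {U₂ : Set E}
    (h₂ : IsMetricOn G₂ U₂) {τ : E → E} {c Y : ℝ → E} {I : Set ℝ} {t : ℝ} {v Y' : E}
    (hu : c t ∈ U) (hu₂ : τ (c t) ∈ U₂) (hτ : ContDiffAt ℝ ∞ τ (c t))
    (hiso : ∀ᶠ x in 𝓝 (c t), ∀ v w, G₂ (τ x) (fderiv ℝ τ x v) (fderiv ℝ τ x w) = G x v w)
    (hc : HasDerivWithinAt c v I t) (hY : HasDerivWithinAt Y Y' I t) :
    HasDerivWithinAt (fun s => fderiv ℝ τ (c s) (Y s))
      (fderiv ℝ τ (c t) (Y' + chris G (c t) v (Y t))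
        - chris G₂ (τ (c t)) (fderiv ℝ τ (c t) v) (fderiv ℝ τ (c t) (Y t))) I t := by
  have hτ' : DifferentiableAt ℝ (fderiv ℝ τ) (c t) :=
    (hτ.fderiv_right (m := ∞) (by simp)).differentiableAt (by simp)
  have h1 := (hτ'.hasFDerivAt.comp_hasDerivWithinAt t hc).clm_apply hY
  refine h1.congr_deriv ?_
  rw [map_add, hG.chris_trans h₂ hu hu₂ hτ hiso]
  simp only [Function.comp]
  abel

end Coord

variable {M : Type} [TopologicalSpace M] [ChartedSpace E M] [IsManifold 𝓘(ℝ, E) ∞ M]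
  {a b q : M} {g : RMetric E M} {cov : Conn E M}

theorem SmoothAt.hat (h : q ∈ (chartAt E a).source) {Y : Field E M} (hY : SmoothAt Y q) :
    ContDiffAt ℝ ∞ (hat a Y) (chartAt E a q) := by
  have e := (chartAt E a).left_inv h
  have h1 := ((trivializationAt E (TangentSpace 𝓘(ℝ, E)) a).contMDiffAt_section_iff
    (IB := 𝓘(ℝ, E)) (n := ∞) (s := Y) (x₀ := q) h).1 hY
  have h2 : ContMDiffAt 𝓘(ℝ, E) 𝓘(ℝ, E) ∞ (chartAt E a).symm (chartAt E a q) :=
    (contMDiffOn_chart_symm (I := 𝓘(ℝ, E)) (n := ∞) (x := a)).contMDiffAt (ev_tgt h)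
  rw [← e] at h1
  exact contMDiffAt_iff_contDiffAt.1 (h1.comp _ h2)

theorem smoothAt_extend (v : TangentSpace 𝓘(ℝ, E) q) : SmoothAt (extend E v) q :=
  contMDiffAt_extend (k := ∞) 𝓘(ℝ, E) E v

theorem IsLeviCivita.hat_cov (hc : IsLeviCivita g cov) (h : q ∈ (chartAt E a).source)
    (Y : Field E M) {Z : Field E M} (hZ : SmoothAt Z q) :
    hat a (fun p => cov Z p (Y p)) =ᶠ[𝓝 (chartAt E a q)]
      nab ((toMetric g).coef a) (hat a Y) (hat a Z) := by
  have h1 : ContDiffAt ℝ 1 (hat a Z) (chartAt E a q) := (hZ.hat h).of_le (by norm_cast)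
  filter_upwards [ev_tgt h, h1.eventually (by simp)] with u hu hd
  have hp := (chartAt E a).map_target hu
  have e := (chartAt E a).right_inv hu
  have h2 : DiffAt Z ((chartAt E a).symm u) :=
    (diffAt_iff hp Z).2 (by rw [e]; exact hd.differentiableAt (by simp))
  have h3 := hc.cp_cov hp h2 (Y _)
  rw [e, ← P255.chrisB_apply] at h3
  exact h3

/-- the curvature in a chart -/
theorem IsLeviCivita.cp_curvField (hc : IsLeviCivita g cov) (h : q ∈ (chartAt E a).source)
    {X Y Z : Field E M} (hX : SmoothAt X q) (hY : SmoothAt Y q) (hZ : SmoothAt Z q) :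
    cp a (curvField cov X Y Z q) =
      curv ((toMetric g).coef a) (chartAt E a q) (cp a (X q)) (cp a (Y q)) (cp a (Z q)) := by
  have hG := (toMetric g).isMetricOn a
  have hu := (chartAt E a).map_source h
  have dX := (hX.hat h).differentiableAt (by simp)
  have dY := (hY.hat h).differentiableAt (by simp)
  have dZ : ContDiffAt ℝ 2 (hat a Z) (chartAt E a q) := (hZ.hat h).of_le (by norm_cast)
  have key := curv_coord hG hu dX dY dZ
  have h1 : ∀ {W : Field E M}, DifferentiableAt ℝ (hat a W) (chartAt E a q) →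
      ∀ v : TangentSpace 𝓘(ℝ, E) q, cp a (cov (fun p => cov Z p (W p)) q v) =
        fderiv ℝ (nab ((toMetric g).coef a) (hat a W) (hat a Z)) (chartAt E a q) (cp a v) +
        chris ((toMetric g).coef a) (chartAt E a q) (cp a v)
          (nab ((toMetric g).coef a) (hat a W) (hat a Z) (chartAt E a q)) := by
    intro W hW v
    have e := hc.hat_cov h W hZ
    rw [hc.cp_cov h ((diffAt_iff h _).2 (e.differentiableAt_iff.2 (nab_deriv hG hu hW dZ).1)),
      e.fderiv_eq, ← e.eq_of_nhds, hat_self h]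
  unfold curvField
  rw [cp_sub h, cp_sub h, h1 dY, h1 dX,
    hc.cp_cov h ((diffAt_iff h Z).2 (dZ.differentiableAt (by simp))),
    cp_bracket h ((diffAt_iff h X).2 dX) ((diffAt_iff h Y).2 dY)]
  rw [hat_self h, hat_self h, hat_self h] at key
  exact key

theorem IsLeviCivita.cp_Rm (hc : IsLeviCivita g cov) (h : q ∈ (chartAt E a).source)
    (x y z : TangentSpace 𝓘(ℝ, E) q) :
    cp a (Rm cov q x y z) =
      curv ((toMetric g).coef a) (chartAt E a q) (cp a x) (cp a y) (cp a z) := by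
  have := hc.cp_curvField h (smoothAt_extend x) (smoothAt_extend y) (smoothAt_extend z)
  rwa [extend_apply_self, extend_apply_self, extend_apply_self] at this

theorem IsLeviCivita.tensorial (hc : IsLeviCivita g cov) {X Y Z : Field E M} (hX : SmoothAt X q)
    (hY : SmoothAt Y q) (hZ : SmoothAt Z q) :
    curvField cov X Y Z q = Rm cov q (X q) (Y q) (Z q) := by
  have h := mem_chart_source E q
  exact cp_inj h ((hc.cp_curvField h hX hY hZ).trans (hc.cp_Rm h _ _ _).symm)

variable {I : Set ℝ} {γ : ℝ → M} {J : Along E γ} {t : ℝ}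

theorem hasDeriv_cc (h : γ t ∈ (chartAt E a).source)
    (hγ : MDifferentiableWithinAt 𝓘(ℝ, ℝ) 𝓘(ℝ, E) γ I t) :
    HasDerivWithinAt (cc (E := E) γ a) (cp a (vel E I γ t)) I t := by
  have h1 := (P255.mdifferentiableAt_chart (E := E) a (γ t) h).hasMFDerivAt.comp_hasMFDerivWithinAt
    t hγ.hasMFDerivWithinAt
  have key : ∀ (f : ℝ → E) (L : ℝ →L[ℝ] E), HasFDerivWithinAt f L I t →
      HasDerivWithinAt f (L 1) I t := fun _ _ h => h.hasDerivWithinAt
  rw [cp_eq h]
  exact key _ _ (hasMFDerivWithinAt_iff_hasFDerivWithinAt.1 h1)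

theorem IsLeviCivita.cp_covD_self (hc : IsLeviCivita g cov) :
    cp (γ t) (covD cov I γ J t) = derivWithin (fun s => cp (γ t) (J s)) I t +
      chris ((toMetric g).coef (γ t)) (cc γ (γ t) t) (cp (γ t) (vel E I γ t)) (cp (γ t) (J t)) := by
  have h := mem_chart_source E (γ t)
  have h1 := hc.cp_cov_cf h (cp (γ t) (vel E I γ t)) (cp (γ t) (J t))
  rw [cf_cp h] at h1
  have h2 := cp_cf h (derivWithin (fun s => cp (γ t) (J s)) I t)
  unfold covD
  rw [cp_add h]
  exact congrArg₂ (· + ·) h2 h1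

theorem ev_srcW (h : γ t ∈ (chartAt E a).source) (hγ : ContinuousWithinAt γ I t) :
    ∀ᶠ s in 𝓝[I] t, γ s ∈ (chartAt E a).source := hγ (ev_src h)

/-- the covariant derivative along a curve, in any chart -/
theorem IsLeviCivita.hasDeriv_cp (hc : IsLeviCivita g cov) (h : γ t ∈ (chartAt E a).source)
    (hJ : MDifferentiableWithinAt 𝓘(ℝ, ℝ) 𝓘(ℝ, E).tangent
      (fun s => (⟨γ s, J s⟩ : TangentBundle 𝓘(ℝ, E) M)) I t) :
    HasDerivWithinAt (fun s => cp a (J s)) (cp a (covD cov I γ J t) -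
      chris ((toMetric g).coef a) (cc γ a t) (cp a (vel E I γ t)) (cp a (J t))) I t := by
  have hb := mem_chart_source E (γ t)
  obtain ⟨hγ, hd⟩ := (md_iff hb).1 hJ
  have hu := (chartAt E (γ t)).map_source hb
  have e := (chartAt E (γ t)).left_inv hb
  have h' : (chartAt E (γ t)).symm (cc γ (γ t) t) ∈ (chartAt E a).source := by
    rw [P255.symm_cc hb]; exact h
  have h1 := covD_coord ((toMetric g).isMetricOn (γ t)) ((toMetric g).isMetricOn a)
    (τ := trans E (γ t) a) hu ((chartAt E a).map_source h') (P255.contDiffAt_trans _ a hu h')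
    (by filter_upwards [P255.eventually_trans (γ t) a hu h'] with x hx v w
        exact (toMetric g).compat _ a x hx.1 hx.2 v w)
    (hasDeriv_cc hb hγ) hd.hasDerivWithinAt
  rw [← hc.cp_covD_self, P255.trans_cc hb] at h1
  rw [cp_trans hb h, cp_trans hb h (vel E I γ t), cp_trans hb h (J t)]
  refine h1.congr_of_eventuallyEq ?_ (cp_trans hb h _)
  filter_upwards [ev_srcW hb hγ.continuousWithinAt, ev_srcW h hγ.continuousWithinAt] with s h2 h3
  exact cp_trans h2 h3 _

end

end Vale.Agent.P255L
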