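import Mathlib.Geometry.Manifold.VectorBundle.CovariantDerivative.Torsion
import Mathlib.Geometry.Manifold.VectorBundle.Riemannian
import Mathlib.Analysis.Calculus.Deriv.Basic

/-! P255: Levi-Civita connection, curvature, geodesics and Jacobi fields on any interval. -/

namespace Vale.Agent.P255L

open scoped Manifold ContDiff
open Bundle VectorField FiberBundle

noncomputable section

variable (E : Type) [NormedAddCommGroup E] [NormedSpace ℝ E] [FiniteDimensional ℝ E]
  (M : Type) [TopologicalSpace M] [ChartedSpace E M] [IsManifold 𝓘(ℝ, E) ∞ M]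

/-- Smooth Riemannian metrics. -/
abbrev RMetric : Type :=
  ContMDiffRiemannianMetric 𝓘(ℝ, E) ∞ E (fun x : M => TangentSpace 𝓘(ℝ, E) x)

/-- Connections on the tangent bundle; `cov Y p v` is `∇_v Y`. -/
abbrev Conn : Type := CovariantDerivative 𝓘(ℝ, E) E (TangentSpace 𝓘(ℝ, E) : M → Type)

/-- Vector fields. -/
abbrev Field : Type := (p : M) → TangentSpace 𝓘(ℝ, E) p

variable {M} in
/-- Vector fields along the curve `γ`. -/
abbrev Along (γ : ℝ → M) : Type := (t : ℝ) → TangentSpace 𝓘(ℝ, E) (γ t)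

variable {E M}

/-- The field `X` is differentiable at `p`. -/
def DiffAt (X : Field E M) (p : M) : Prop :=
  MDifferentiableAt 𝓘(ℝ, E) 𝓘(ℝ, E).tangent (fun q => (⟨q, X q⟩ : TangentBundle 𝓘(ℝ, E) M)) p

/-- The field `X` is smooth at `p`. -/
def SmoothAt (X : Field E M) (p : M) : Prop :=
  ContMDiffAt 𝓘(ℝ, E) 𝓘(ℝ, E).tangent ∞ (fun q => (⟨q, X q⟩ : TangentBundle 𝓘(ℝ, E) M)) p

/-- Levi-Civita connection of `g`: torsion free and compatible with `g`. -/
structure IsLeviCivita (g : RMetric E M) (cov : Conn E M) : Prop where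
  torsion : cov.torsion = 0
  metric : ∀ (Y Z : Field E M) (p : M), DiffAt Y p → DiffAt Z p → ∀ v : TangentSpace 𝓘(ℝ, E) p,
    mvfderiv 𝓘(ℝ, E) (fun q => g.inner q (Y q) (Z q)) p v =
      g.inner p (cov Y p v) (Z p) + g.inner p (Y p) (cov Z p v)

/-- `∇_X ∇_Y Z - ∇_Y ∇_X Z - ∇_[X,Y] Z`. -/
def curvField (cov : Conn E M) (X Y Z : Field E M) (p : M) : TangentSpace 𝓘(ℝ, E) p :=
  cov (fun q => cov Z q (Y q)) p (X p) - cov (fun q => cov Z q (X q)) p (Y p) -
    cov Z p (mlieBracket 𝓘(ℝ, E) X Y p)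

/-- The curvature tensor `R(x,y)z` at `p` (the vectors are extended to local fields). -/
def Rm (cov : Conn E M) (p : M) (x y z : TangentSpace 𝓘(ℝ, E) p) : TangentSpace 𝓘(ℝ, E) p :=
  curvField cov (extend E x) (extend E y) (extend E z) p

/-- The sectional curvature of the plane spanned by `v, w`. -/
def sec (g : RMetric E M) (cov : Conn E M) (p : M) (v w : TangentSpace 𝓘(ℝ, E) p) : ℝ :=
  g.inner p (Rm cov p v w w) v / (g.inner p v v * g.inner p w w - g.inner p v w ^ 2)

/-- Nonpositive sectional curvature. -/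
def Nonpos (g : RMetric E M) (cov : Conn E M) : Prop :=
  ∀ (p : M) (v w : TangentSpace 𝓘(ℝ, E) p), LinearIndependent ℝ ![v, w] → sec g cov p v w ≤ 0

variable (E) in
/-- The velocity of `γ` on the set of times `I` (one-sided at end points). -/
def vel (I : Set ℝ) (γ : ℝ → M) : Along E γ := fun t =>
  mfderivWithin 𝓘(ℝ, ℝ) 𝓘(ℝ, E) γ I t (1 : ℝ)

/-- `t ↦ (γ t, J t)` is differentiable on `I`, as a map to the tangent bundle. -/
def DiffAlong (I : Set ℝ) (γ : ℝ → M) (J : Along E γ) : Prop :=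
  MDifferentiableOn 𝓘(ℝ, ℝ) 𝓘(ℝ, E).tangent (fun t => (⟨γ t, J t⟩ : TangentBundle 𝓘(ℝ, E) M)) I

/-- The covariant derivative along `γ`: for `J = Σ Jᵏ ∂ₖ` in the coordinate frame at `γ t`,
`D_t J = Σ (Jᵏ)' ∂ₖ + Σ Jᵏ ∇_γ' ∂ₖ`. -/
def covD (cov : Conn E M) (I : Set ℝ) (γ : ℝ → M) (J : Along E γ) : Along E γ := fun t =>
  (trivializationAt E (TangentSpace 𝓘(ℝ, E)) (γ t)).symm (γ t)
      (derivWithin (fun s => (trivializationAt E (TangentSpace 𝓘(ℝ, E)) (γ t) ⟨γ s, J s⟩).2) I t)
    + cov (extend E (J t)) (γ t) (vel E I γ t)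

/-- Geodesic on the set of times `I`: `D_t γ' = 0`. -/
def IsGeodesic (cov : Conn E M) (I : Set ℝ) (γ : ℝ → M) : Prop :=
  DiffAlong I γ (vel E I γ) ∧ ∀ t ∈ I, covD cov I γ (vel E I γ) t = 0

/-- Jacobi field on the set of times `I`: `D_t D_t J + R(J, γ') γ' = 0`. -/
def IsJacobi (cov : Conn E M) (I : Set ℝ) (γ : ℝ → M) (J : Along E γ) : Prop :=
  DiffAlong I γ J ∧ DiffAlong I γ (covD cov I γ J) ∧
    ∀ t ∈ I, covD cov I γ (covD cov I γ J) t + Rm cov (γ t) (J t) (vel E I γ t) (vel E I γ t) = 0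

/-- No conjugate points: along a geodesic on any interval `I` (open, closed, half-open, bounded or
not), a Jacobi field which vanishes at two distinct times of `I` vanishes on `I`. -/
def NoConjugatePoints (cov : Conn E M) : Prop :=
  ∀ I : Set ℝ, I.OrdConnected → ∀ (γ : ℝ → M) (J : Along E γ), IsGeodesic cov I γ →
    IsJacobi cov I γ J → ∀ t₁ ∈ I, ∀ t₂ ∈ I, t₁ ≠ t₂ → J t₁ = 0 → J t₂ = 0 → ∀ t ∈ I, J t = 0

variable (E M) in
/-- `M` admits a Riemannian metric without conjugate points. -/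
def AdmitsNoConj : Prop :=
  ∃ (g : RMetric E M) (cov : Conn E M), IsLeviCivita g cov ∧ NoConjugatePoints cov

variable (E M) in
/-- `M` admits a Riemannian metric of nonpositive sectional curvature. -/
def AdmitsNonpos : Prop :=
  ∃ (g : RMetric E M) (cov : Conn E M), IsLeviCivita g cov ∧ Nonpos g cov

/-- `Rm` is the curvature tensor, and `covD` is the covariant derivative along curves: additive,
Leibniz rule, and `D_t (X ∘ γ) = ∇_γ' X`. -/
def Calculus (cov : Conn E M) : Prop :=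
  (∀ (X Y Z : Field E M) (p : M), SmoothAt X p → SmoothAt Y p → SmoothAt Z p →
    curvField cov X Y Z p = Rm cov p (X p) (Y p) (Z p)) ∧
  ∀ I : Set ℝ, UniqueDiffOn ℝ I → ∀ (γ : ℝ → M) (J K : Along E γ), DiffAlong I γ J →
    DiffAlong I γ K → ∀ t ∈ I,
      covD cov I γ (fun s => J s + K s) t = covD cov I γ J t + covD cov I γ K t ∧
      (∀ (f : ℝ → ℝ) (f' : ℝ), HasDerivWithinAt f f' I t →
        covD cov I γ (fun s => f s • J s) t = f' • J t + f t • covD cov I γ J t) ∧
      ∀ X : Field E M, DiffAt X (γ t) →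
        covD cov I γ (fun s => X (γ s)) t = cov X (γ t) (vel E I γ t)

/-- Geodesics on `ℝ` exist for all initial data, every geodesic on an interval with two points is
the restriction of one, and Jacobi fields with `J 0 = 0`, `D_t J 0 = w` exist along them. -/
def Complete (cov : Conn E M) : Prop :=
  (∀ x : TangentBundle 𝓘(ℝ, E) M, ∃ γ : ℝ → M, IsGeodesic cov Set.univ γ ∧
    (⟨γ 0, vel E Set.univ γ 0⟩ : TangentBundle 𝓘(ℝ, E) M) = x) ∧
  (∀ I : Set ℝ, I.OrdConnected → I.Nontrivial → ∀ γ : ℝ → M, IsGeodesic cov I γ →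
    ∃ σ : ℝ → M, IsGeodesic cov Set.univ σ ∧ Set.EqOn σ γ I) ∧
  ∀ γ : ℝ → M, IsGeodesic cov Set.univ γ → ∀ w : TangentSpace 𝓘(ℝ, E) (γ 0),
    ∃ J : Along E γ, IsJacobi cov Set.univ γ J ∧ J 0 = 0 ∧ covD cov Set.univ γ J 0 = w

variable (E M) in
/-- Every metric has a Levi-Civita connection, which is smooth and unique, with the properties
above; nonpositive curvature implies no conjugate points (a check of the sign conventions). -/
def WellPosed : Prop :=
  ∀ g : RMetric E M, ∃ cov : Conn E M, IsLeviCivita g cov ∧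
    cov.ContMDiffCovariantDerivative ∞ ∧ ∀ cov' : Conn E M, IsLeviCivita g cov' →
      (∀ (Y : Field E M) (p : M), DiffAt Y p → cov' Y p = cov Y p) ∧
        Calculus cov' ∧ Complete cov' ∧ (Nonpos g cov' → NoConjugatePoints cov')

end

end Vale.Agent.P255L
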