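import Vale.Agent.P255L9.Curv

/-! P255: the first order system of geodesics and Jacobi fields; uniqueness on intervals. -/

set_option maxSynthPendingDepth 3
set_option linter.unusedSectionVars false

namespace Vale.Agent.P255L

open scoped Manifold ContDiff Topology
open Bundle VectorField FiberBundle Set Filter
open Vale.Agent.P255 (trans chris chrisB curv toMetric IsMetricOn cc)

noncomputable section

variable {E : Type} [NormedAddCommGroup E] [NormedSpace ℝ E] [FiniteDimensional ℝ E]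
  {M : Type} [TopologicalSpace M] [ChartedSpace E M] [IsManifold 𝓘(ℝ, E) ∞ M]

/-- position, velocity `V`, Jacobi field `J` and its derivative `K`, in all charts -/
structure Sol (k : P255.Metric E M) (I : Set ℝ) (γ : ℝ → M) (V J K : Along E γ) : Prop where
  cont : ContinuousOn γ I
  d1 : ∀ a, ∀ t ∈ I, γ t ∈ (chartAt E a).source → HasDerivWithinAt (cc γ a) (cp a (V t)) I t
  d2 : ∀ a, ∀ t ∈ I, γ t ∈ (chartAt E a).source → HasDerivWithinAt (fun s => cp a (V s))
    (-chris (k.coef a) (cc γ a t) (cp a (V t)) (cp a (V t))) I t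
  d3 : ∀ a, ∀ t ∈ I, γ t ∈ (chartAt E a).source → HasDerivWithinAt (fun s => cp a (J s))
    (cp a (K t) - chris (k.coef a) (cc γ a t) (cp a (V t)) (cp a (J t))) I t
  d4 : ∀ a, ∀ t ∈ I, γ t ∈ (chartAt E a).source → HasDerivWithinAt (fun s => cp a (K s))
    (-curv (k.coef a) (cc γ a t) (cp a (J t)) (cp a (V t)) (cp a (V t))
      - chris (k.coef a) (cc γ a t) (cp a (V t)) (cp a (K t))) I t

variable {k : P255.Metric E M} {I I' : Set ℝ} {γ σ : ℝ → M} {V J K : Along E γ}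
  {V' J' K' : Along E σ}

theorem Sol.mono (h : Sol k I γ V J K) (hI : I' ⊆ I) : Sol k I' γ V J K :=
  ⟨h.cont.mono hI, fun a t ht ha => (h.d1 a t (hI ht) ha).mono hI,
    fun a t ht ha => (h.d2 a t (hI ht) ha).mono hI, fun a t ht ha => (h.d3 a t (hI ht) ha).mono hI,
    fun a t ht ha => (h.d4 a t (hI ht) ha).mono hI⟩

theorem sol_zero (hc : ContinuousOn γ I)
    (d1 : ∀ a, ∀ t ∈ I, γ t ∈ (chartAt E a).source → HasDerivWithinAt (cc γ a) (cp a (V t)) I t)
    (d2 : ∀ a, ∀ t ∈ I, γ t ∈ (chartAt E a).source → HasDerivWithinAt (fun s => cp a (V s))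
      (-chris (k.coef a) (cc γ a t) (cp a (V t)) (cp a (V t))) I t) :
    Sol k I γ V (fun _ => 0) (fun _ => 0) := by
  have h0 : ∀ a, ∀ t ∈ I, γ t ∈ (chartAt E a).source →
      HasDerivWithinAt (fun s => cp a (0 : TangentSpace 𝓘(ℝ, E) (γ s))) 0 I t := by
    intro a t ht ha
    refine (hasDerivWithinAt_const t I (0 : E)).congr_of_eventuallyEq ?_ (cp_zero ha)
    filter_upwards [ev_srcW ha (hc t ht)] with s hs using cp_zero hs
  refine ⟨hc, d1, d2, fun a t ht ha => (h0 a t ht ha).congr_deriv ?_,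
    fun a t ht ha => (h0 a t ht ha).congr_deriv ?_⟩
  · rw [cp_zero ha, ← P255.chrisB_apply]; simp
  · rw [cp_zero ha, ← P255.chrisB_apply, (k.isMetricOn a).curv_eq (P255.cc_mem ha)]; simp

theorem Sol.shift (h : Sol k univ γ V J K) (c : ℝ) :
    Sol k univ (fun s => γ (s - c)) (fun s => V (s - c)) (fun s => J (s - c))
      (fun s => K (s - c)) := by
  have key : ∀ {f : ℝ → E} {f' : E} {t : ℝ}, HasDerivWithinAt f f' univ (t - c) →
      HasDerivWithinAt (fun s => f (s - c)) f' univ t := by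
    intro f f' t hf
    rw [hasDerivWithinAt_univ] at hf ⊢
    exact hf.comp_sub_const t c
  refine ⟨h.cont.comp (by fun_prop) (mapsTo_univ _ _), fun a t _ ha => ?_, fun a t _ ha => ?_,
    fun a t _ ha => ?_, fun a t _ ha => ?_⟩
  · exact key (h.d1 a _ (mem_univ _) ha)
  · exact key (h.d2 a _ (mem_univ _) ha)
  · exact key (h.d3 a _ (mem_univ _) ha)
  · exact key (h.d4 a _ (mem_univ _) ha)

/-- the vector field of the system -/
def Phi (G : E → E →L[ℝ] E →L[ℝ] ℝ) (y : E × E × E × E) : E × E × E × E :=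
  (y.2.1, -chrisB G y.1 y.2.1 y.2.1, y.2.2.2 - chrisB G y.1 y.2.1 y.2.2.1,
    -(fderiv ℝ (chrisB G) y.1 y.2.2.1 y.2.1 y.2.1 - fderiv ℝ (chrisB G) y.1 y.2.1 y.2.2.1 y.2.1
      + chrisB G y.1 y.2.2.1 (chrisB G y.1 y.2.1 y.2.1)
      - chrisB G y.1 y.2.1 (chrisB G y.1 y.2.2.1 y.2.1)) - chrisB G y.1 y.2.1 y.2.2.2)

theorem contDiffAt_Phi {G : E → E →L[ℝ] E →L[ℝ] ℝ} {U : Set E} (hG : IsMetricOn G U)
    {y : E × E × E × E} (hy : y.1 ∈ U) : ContDiffAt ℝ 1 (Phi G) y := by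
  have hB : ContDiffAt ℝ 1 (fun z : E × E × E × E => chrisB G z.1) y :=
    ((hG.contDiffAt_chrisB hy).of_le (by norm_cast)).comp y contDiffAt_fst
  have hD : ContDiffAt ℝ 1 (fun z : E × E × E × E => fderiv ℝ (chrisB G) z.1) y :=
    ((hG.contDiffAt_chrisB hy).fderiv_right (m := 1) (by norm_cast)).comp y contDiffAt_fst
  have hv : ContDiffAt ℝ 1 (fun z : E × E × E × E => z.2.1) y := contDiffAt_snd.fst
  have hj : ContDiffAt ℝ 1 (fun z : E × E × E × E => z.2.2.1) y := contDiffAt_snd.snd.fst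
  have hk : ContDiffAt ℝ 1 (fun z : E × E × E × E => z.2.2.2) y := contDiffAt_snd.snd.snd
  have h4 := (((((hD.clm_apply hj).clm_apply hv).clm_apply hv).sub
    (((hD.clm_apply hv).clm_apply hj).clm_apply hv)).add
    ((hB.clm_apply hj).clm_apply ((hB.clm_apply hv).clm_apply hv))).sub
    ((hB.clm_apply hv).clm_apply ((hB.clm_apply hj).clm_apply hv))
  exact hv.prodMk ((((hB.clm_apply hv).clm_apply hv).neg).prodMk
    ((hk.sub ((hB.clm_apply hv).clm_apply hj)).prodMk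
      (h4.neg.sub ((hB.clm_apply hv).clm_apply hk))))

/-- the data in the chart at `a` -/
def dat (a : M) (γ : ℝ → M) (V J K : Along E γ) (s : ℝ) : E × E × E × E :=
  (cc γ a s, cp a (V s), cp a (J s), cp a (K s))

theorem Sol.ode (h : Sol k I γ V J K) {a : M} {t : ℝ} (ht : t ∈ I)
    (ha : γ t ∈ (chartAt E a).source) :
    HasDerivWithinAt (dat a γ V J K) (Phi (k.coef a) (dat a γ V J K t)) I t := by
  have h4 := h.d4 a t ht ha
  rw [(k.isMetricOn a).curv_eq (P255.cc_mem ha)] at h4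
  have := (h.d1 a t ht ha).prodMk ((h.d2 a t ht ha).prodMk ((h.d3 a t ht ha).prodMk h4))
  simp only [← P255.chrisB_apply] at this
  exact this

/-- the same data at the time `t` -/
def Same (γ : ℝ → M) (V J K : Along E γ) (σ : ℝ → M) (V' J' K' : Along E σ) (t : ℝ) : Prop :=
  (⟨γ t, V t⟩ : TangentBundle 𝓘(ℝ, E) M) = ⟨σ t, V' t⟩ ∧
  (⟨γ t, J t⟩ : TangentBundle 𝓘(ℝ, E) M) = ⟨σ t, J' t⟩ ∧
  (⟨γ t, K t⟩ : TangentBundle 𝓘(ℝ, E) M) = ⟨σ t, K' t⟩

theorem tb_eq {a p q : M} (e : p = q) (hp : p ∈ (chartAt E a).source)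
    {v : TangentSpace 𝓘(ℝ, E) p} {w : TangentSpace 𝓘(ℝ, E) q} (h : cp a v = cp a w) :
    (⟨p, v⟩ : TangentBundle 𝓘(ℝ, E) M) = ⟨q, w⟩ := by
  subst e
  rw [cp_inj hp h]

theorem cp_of_tb {a p q : M} {v : TangentSpace 𝓘(ℝ, E) p} {w : TangentSpace 𝓘(ℝ, E) q}
    (h : (⟨p, v⟩ : TangentBundle 𝓘(ℝ, E) M) = ⟨q, w⟩) : cp a v = cp a w := by
  unfold cp; rw [h]

theorem zero_of_tb {p q : M} {v : TangentSpace 𝓘(ℝ, E) p} {w : TangentSpace 𝓘(ℝ, E) q}
    (h : (⟨p, v⟩ : TangentBundle 𝓘(ℝ, E) M) = ⟨q, w⟩) : v = 0 ↔ w = 0 := by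
  cases h; rfl

theorem Same.pt {t : ℝ} (h : Same γ V J K σ V' J' K' t) : γ t = σ t :=
  congrArg TotalSpace.proj h.1

theorem same_iff {a : M} {t : ℝ} (ha : γ t ∈ (chartAt E a).source)
    (ha' : σ t ∈ (chartAt E a).source) :
    Same γ V J K σ V' J' K' t ↔ dat a γ V J K t = dat a σ V' J' K' t := by
  constructor
  · intro h
    unfold dat cc
    rw [cp_of_tb h.1, cp_of_tb h.2.1, cp_of_tb h.2.2, h.pt]
  · intro h
    simp only [dat, Prod.mk.injEq] at h
    have e : γ t = σ t := (chartAt E a).injOn ha ha' h.1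
    exact ⟨tb_eq e ha h.2.1, tb_eq e ha h.2.2.1, tb_eq e ha h.2.2.2⟩

theorem Sol.loc (h : Sol k I γ V J K) (h' : Sol k I σ V' J' K') (hI : I.OrdConnected) {t : ℝ}
    (ht : t ∈ I) (e : Same γ V J K σ V' J' K' t) :
    ∀ᶠ s in 𝓝[I] t, Same γ V J K σ V' J' K' s := by
  have ha := mem_chart_source E (γ t)
  have ha' : σ t ∈ (chartAt E (γ t)).source := e.pt ▸ ha
  set a := γ t
  have e0 := (same_iff ha ha').1 e
  obtain ⟨C, W, hW, hC⟩ := (contDiffAt_Phi (k.isMetricOn a) (y := dat a γ V J K t)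
    (P255.cc_mem ha)).exists_lipschitzOnWith
  have h1 : ∀ᶠ s in 𝓝[I] t, γ s ∈ (chartAt E a).source ∧ σ s ∈ (chartAt E a).source ∧
      dat a γ V J K s ∈ W ∧ dat a σ V' J' K' s ∈ W :=
    (ev_srcW ha (h.cont t ht)).and ((ev_srcW ha' (h'.cont t ht)).and
      (Eventually.and ((h.ode ht ha).continuousWithinAt hW)
        ((h'.ode ht ha').continuousWithinAt (e0 ▸ hW))))
  obtain ⟨ε, hε, hb⟩ := Metric.mem_nhdsWithin_iff.1 h1
  filter_upwards [self_mem_nhdsWithin, mem_nhdsWithin_of_mem_nhds (Metric.ball_mem_nhds t hε)]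
    with s hs hsb
  have hs1 := hb ⟨hsb, hs⟩
  rw [same_iff hs1.1 hs1.2.1]
  have hsub : uIcc t s ⊆ I := hI.uIcc_subset ht hs
  have hall : ∀ x ∈ uIcc t s, γ x ∈ (chartAt E a).source ∧ σ x ∈ (chartAt E a).source ∧
      dat a γ V J K x ∈ W ∧ dat a σ V' J' K' x ∈ W := fun x hx =>
    hb ⟨(convex_ball t ε).ordConnected.uIcc_subset (Metric.mem_ball_self hε) hsb hx, hsub hx⟩
  have c1 : ContinuousOn (dat a γ V J K) (uIcc t s) := fun x hx =>
    ((h.ode (hsub hx) (hall x hx).1).continuousWithinAt).mono hsub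
  have c2 : ContinuousOn (dat a σ V' J' K') (uIcc t s) := fun x hx =>
    ((h'.ode (hsub hx) (hall x hx).2.1).continuousWithinAt).mono hsub
  rcases le_total t s with hts | hts
  · rw [uIcc_of_le hts] at hsub hall c1 c2
    have hn : ∀ x ∈ Ico t s, I ∈ 𝓝[≥] x := fun x hx =>
      mem_of_superset (Icc_mem_nhdsGE_of_mem hx) hsub
    exact ODE_solution_unique_of_mem_Icc_right (v := fun _ => Phi (k.coef a)) (s := fun _ => W)
      (fun _ _ => hC) c1
      (fun x hx => (h.ode (hsub (Ico_subset_Icc_self hx))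
        (hall x (Ico_subset_Icc_self hx)).1).mono_of_mem_nhdsWithin (hn x hx))
      (fun x hx => (hall x (Ico_subset_Icc_self hx)).2.2.1) c2
      (fun x hx => (h'.ode (hsub (Ico_subset_Icc_self hx))
        (hall x (Ico_subset_Icc_self hx)).2.1).mono_of_mem_nhdsWithin (hn x hx))
      (fun x hx => (hall x (Ico_subset_Icc_self hx)).2.2.2) e0 (right_mem_Icc.2 hts)
  · rw [uIcc_of_ge hts] at hsub hall c1 c2
    have hn : ∀ x ∈ Ioc s t, I ∈ 𝓝[≤] x := fun x hx =>
      mem_of_superset (Icc_mem_nhdsLE_of_mem hx) hsub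
    exact ODE_solution_unique_of_mem_Icc_left (v := fun _ => Phi (k.coef a)) (s := fun _ => W)
      (fun _ _ => hC) c1
      (fun x hx => (h.ode (hsub (Ioc_subset_Icc_self hx))
        (hall x (Ioc_subset_Icc_self hx)).1).mono_of_mem_nhdsWithin (hn x hx))
      (fun x hx => (hall x (Ioc_subset_Icc_self hx)).2.2.1) c2
      (fun x hx => (h'.ode (hsub (Ioc_subset_Icc_self hx))
        (hall x (Ioc_subset_Icc_self hx)).2.1).mono_of_mem_nhdsWithin (hn x hx))
      (fun x hx => (hall x (Ioc_subset_Icc_self hx)).2.2.2) e0 (left_mem_Icc.2 hts)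

theorem Sol.closed [T2Space M] (h : Sol k I γ V J K) (h' : Sol k I σ V' J' K') {t : ℝ}
    (ht : t ∈ I) (e : ∃ᶠ s in 𝓝[I] t, Same γ V J K σ V' J' K' s) :
    Same γ V J K σ V' J' K' t := by
  have e1 : γ t = σ t :=
    tendsto_nhds_unique_of_frequently_eq (h.cont t ht) (h'.cont t ht) (e.mono fun s hs => hs.pt)
  have ha := mem_chart_source E (γ t)
  have ha' : σ t ∈ (chartAt E (γ t)).source := e1 ▸ ha
  rw [same_iff ha ha']
  refine tendsto_nhds_unique_of_frequently_eq (h.ode ht ha).continuousWithinAt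
    (h'.ode ht ha').continuousWithinAt ?_
  refine (e.and_eventually ((ev_srcW ha (h.cont t ht)).and (ev_srcW ha' (h'.cont t ht)))).mono ?_
  rintro s ⟨hs, h1, h2⟩
  exact (same_iff h1 h2).1 hs

/-- uniqueness on an interval -/
theorem Sol.unique [T2Space M] (h : Sol k I γ V J K) (h' : Sol k I σ V' J' K')
    (hI : I.OrdConnected) {t₀ : ℝ} (ht₀ : t₀ ∈ I) (e : Same γ V J K σ V' J' K' t₀) :
    ∀ t ∈ I, Same γ V J K σ V' J' K' t := by
  have hp : PreconnectedSpace I := Subtype.preconnectedSpace hI.isPreconnected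
  have hn : ∀ (x : I) (p : ℝ → Prop), (∀ᶠ s in 𝓝[I] (x : ℝ), p s) ↔ ∀ᶠ y : I in 𝓝 x, p y := by
    intro x p
    rw [nhdsWithin_eq_map_subtype_coe x.2, eventually_map]
  have hc : IsClopen {x : I | Same γ V J K σ V' J' K' x} := by
    constructor
    · rw [← isOpen_compl_iff, isOpen_iff_mem_nhds]
      intro x hx
      by_contra hcon
      refine hx (h.closed h' x.2 fun h1 => hcon ?_)
      exact (hn x _).1 h1
    · rw [isOpen_iff_mem_nhds]
      intro x hx
      exact (hn x _).1 (h.loc h' hI x.2 hx)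
  have hu := hc.eq_univ ⟨⟨t₀, ht₀⟩, e⟩
  intro t ht
  have : (⟨t, ht⟩ : I) ∈ {x : I | Same γ V J K σ V' J' K' x} := hu ▸ mem_univ _
  exact this

end

end Vale.Agent.P255L
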